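import Vale.Agent.P286.Ad.H163.EEight

/-!
# The number of roots of type `E₈` is 240
-/

namespace Vale.Agent.P286.Ad.H163

open Matrix

/-- Three consecutive integers. -/
def tri (x : ℤ) : List ℤ := [x, x + 1, x + 2]

theorem mem_tri {x y : ℤ} : y ∈ tri x ↔ x ≤ y ∧ y ≤ x + 2 := by
  unfold tri
  simp only [List.mem_cons, List.not_mem_nil, or_false]
  omega

/-- The values of the coordinate `3`. -/
def c3 : List ℤ := (List.range 15).map fun i : ℕ => (i : ℤ) - 7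

theorem mem_c3 {x : ℤ} (h : -7 ≤ x ∧ x ≤ 7) : x ∈ c3 := by
  unfold c3
  refine List.mem_map.2 ⟨(x + 7).toNat, ?_, ?_⟩
  · rw [List.mem_range]
    omega
  · have : ((x + 7).toNat : ℤ) = x + 7 := Int.toNat_of_nonneg (by omega)
    rw [this]
    ring

/-- The enumeration of the roots. -/
def en : List (ℤ × ℤ × ℤ × ℤ × ℤ × ℤ × ℤ × ℤ) :=
  c3.flatMap fun x3 => (tri ((4 * x3 - 2) / 5)).flatMap fun x4 =>
    if 2 * x3 ^ 2 + 3 * (5 * x4 - 4 * x3) ^ 2 ≤ 120 then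
    (tri ((3 * x4 - 1) / 4)).flatMap fun x5 =>
    if 2 * x3 ^ 2 + 3 * (5 * x4 - 4 * x3) ^ 2 + 5 * (4 * x5 - 3 * x4) ^ 2 ≤ 120 then
    (tri ((2 * x5 - 1) / 3)).flatMap fun x6 =>
    if 2 * x3 ^ 2 + 3 * (5 * x4 - 4 * x3) ^ 2 + 5 * (4 * x5 - 3 * x4) ^ 2 +
      10 * (3 * x6 - 2 * x5) ^ 2 ≤ 120 then
    (tri ((x6 - 1) / 2)).flatMap fun x7 =>
    if 2 * x3 ^ 2 + 3 * (5 * x4 - 4 * x3) ^ 2 + 5 * (4 * x5 - 3 * x4) ^ 2 +
      10 * (3 * x6 - 2 * x5) ^ 2 + 30 * (2 * x7 - x6) ^ 2 ≤ 120 then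
    (tri ((x3 - 1) / 2)).flatMap fun x1 =>
    if 2 * x3 ^ 2 + 3 * (5 * x4 - 4 * x3) ^ 2 + 5 * (4 * x5 - 3 * x4) ^ 2 +
      10 * (3 * x6 - 2 * x5) ^ 2 + 30 * (2 * x7 - x6) ^ 2 + 30 * (2 * x1 - x3) ^ 2 ≤ 120 then
    (tri ((2 * x3 - 1) / 3)).flatMap fun x2 =>
    if 2 * x3 ^ 2 + 3 * (5 * x4 - 4 * x3) ^ 2 + 5 * (4 * x5 - 3 * x4) ^ 2 +
      10 * (3 * x6 - 2 * x5) ^ 2 + 30 * (2 * x7 - x6) ^ 2 + 30 * (2 * x1 - x3) ^ 2 +
      10 * (3 * x2 - 2 * x3) ^ 2 ≤ 120 then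
    (tri ((x2 - 1) / 2)).flatMap fun x0 =>
    if 2 * x3 ^ 2 + 3 * (5 * x4 - 4 * x3) ^ 2 + 5 * (4 * x5 - 3 * x4) ^ 2 +
      10 * (3 * x6 - 2 * x5) ^ 2 + 30 * (2 * x7 - x6) ^ 2 + 30 * (2 * x1 - x3) ^ 2 +
      10 * (3 * x2 - 2 * x3) ^ 2 + 30 * (2 * x0 - x2) ^ 2 = 120 then
    [(x0, x1, x2, x3, x4, x5, x6, x7)]
    else [] else [] else [] else [] else [] else [] else []

theorem en_length : en.length = 240 := by decide +kernel

/-- A vector as a number. -/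
def code (x : ℤ × ℤ × ℤ × ℤ × ℤ × ℤ × ℤ × ℤ) : ℤ :=
  x.1 + 20 * (x.2.1 + 20 * (x.2.2.1 + 20 * (x.2.2.2.1 + 20 * (x.2.2.2.2.1 +
    20 * (x.2.2.2.2.2.1 + 20 * (x.2.2.2.2.2.2.1 + 20 * x.2.2.2.2.2.2.2))))))

theorem en_nodup' : (en.map code).Nodup := by decide +kernel

theorem en_nodup : en.Nodup := List.Nodup.of_map _ en_nodup'

/-- A tuple as a vector. -/
def vec (x : ℤ × ℤ × ℤ × ℤ × ℤ × ℤ × ℤ × ℤ) : Fin 8 → ℤ :=
  ![x.1, x.2.1, x.2.2.1, x.2.2.2.1, x.2.2.2.2.1, x.2.2.2.2.2.1, x.2.2.2.2.2.2.1, x.2.2.2.2.2.2.2]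

/-- A vector as a tuple. -/
def tup (a : Fin 8 → ℤ) : ℤ × ℤ × ℤ × ℤ × ℤ × ℤ × ℤ × ℤ :=
  (a 0, a 1, a 2, a 3, a 4, a 5, a 6, a 7)

theorem tup_vec (x : ℤ × ℤ × ℤ × ℤ × ℤ × ℤ × ℤ × ℤ) : tup (vec x) = x := rfl

theorem vec_tup (a : Fin 8 → ℤ) : vec (tup a) = a := by
  funext i
  fin_cases i <;> rfl

/-- The value of the form on a tuple. -/
def nm (x : ℤ × ℤ × ℤ × ℤ × ℤ × ℤ × ℤ × ℤ) : ℤ :=
  x.1 ^ 2 + x.2.1 ^ 2 + x.2.2.1 ^ 2 + x.2.2.2.1 ^ 2 + x.2.2.2.2.1 ^ 2 + x.2.2.2.2.2.1 ^ 2 +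
    x.2.2.2.2.2.2.1 ^ 2 + x.2.2.2.2.2.2.2 ^ 2 - x.1 * x.2.2.1 - x.2.1 * x.2.2.2.1 -
    x.2.2.1 * x.2.2.2.1 - x.2.2.2.1 * x.2.2.2.2.1 - x.2.2.2.2.1 * x.2.2.2.2.2.1 -
    x.2.2.2.2.2.1 * x.2.2.2.2.2.2.1 - x.2.2.2.2.2.2.1 * x.2.2.2.2.2.2.2

theorem nm_vec (a : Fin 8 → ℤ) : B U8 a a = nm (tup a) := B8 a

theorem en_nm : (en.all fun x => decide (nm x = 1)) = true := by decide +kernel

theorem mem_en {a : Fin 8 → ℤ} (ha : B U8 a a = 1) : tup a ∈ en := by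
  have h0 := B8_sq a
  rw [ha] at h0
  have q1 := sq_nonneg (2 * a 0 - a 2)
  have q2 := sq_nonneg (3 * a 2 - 2 * a 3)
  have q3 := sq_nonneg (2 * a 1 - a 3)
  have q4 := sq_nonneg (2 * a 7 - a 6)
  have q5 := sq_nonneg (3 * a 6 - 2 * a 5)
  have q6 := sq_nonneg (4 * a 5 - 3 * a 4)
  have q7 := sq_nonneg (5 * a 4 - 4 * a 3)
  have q8 := sq_nonneg (a 3)
  have b3 := abs_le_of_sq (x := a 3) (m := 7) (by norm_num) (by norm_num; omega)
  have b4 := abs_le_of_sq (x := 5 * a 4 - 4 * a 3) (m := 6) (by norm_num) (by norm_num; omega)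
  have b5 := abs_le_of_sq (x := 4 * a 5 - 3 * a 4) (m := 4) (by norm_num) (by norm_num; omega)
  have b6 := abs_le_of_sq (x := 3 * a 6 - 2 * a 5) (m := 3) (by norm_num) (by norm_num; omega)
  have b7 := abs_le_of_sq (x := 2 * a 7 - a 6) (m := 2) (by norm_num) (by norm_num; omega)
  have b1 := abs_le_of_sq (x := 2 * a 1 - a 3) (m := 2) (by norm_num) (by norm_num; omega)
  have b2 := abs_le_of_sq (x := 3 * a 2 - 2 * a 3) (m := 3) (by norm_num) (by norm_num; omega)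
  have b0 := abs_le_of_sq (x := 2 * a 0 - a 2) (m := 2) (by norm_num) (by norm_num; omega)
  unfold en
  refine List.mem_flatMap.2 ⟨a 3, mem_c3 b3, ?_⟩
  refine List.mem_flatMap.2 ⟨a 4, mem_tri.2 (by omega), ?_⟩
  rw [if_pos (by omega)]
  refine List.mem_flatMap.2 ⟨a 5, mem_tri.2 (by omega), ?_⟩
  rw [if_pos (by omega)]
  refine List.mem_flatMap.2 ⟨a 6, mem_tri.2 (by omega), ?_⟩
  rw [if_pos (by omega)]
  refine List.mem_flatMap.2 ⟨a 7, mem_tri.2 (by omega), ?_⟩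
  rw [if_pos (by omega)]
  refine List.mem_flatMap.2 ⟨a 1, mem_tri.2 (by omega), ?_⟩
  rw [if_pos (by omega)]
  refine List.mem_flatMap.2 ⟨a 2, mem_tri.2 (by omega), ?_⟩
  rw [if_pos (by omega)]
  refine List.mem_flatMap.2 ⟨a 0, mem_tri.2 (by omega), ?_⟩
  rw [if_pos (by omega)]
  exact List.mem_singleton.2 rfl

/-- **There are 240 roots.** -/
theorem card_roots : Fintype.card (Rt U8) = 240 := by
  classical
  have h1 : ∀ a : Fin 8 → ℤ, a ∈ (en.map vec).toFinset ↔ B U8 a a = 1 := by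
    intro a
    rw [List.mem_toFinset, List.mem_map]
    constructor
    · rintro ⟨x, hx, rfl⟩
      have h2 := List.all_eq_true.1 en_nm x hx
      rw [decide_eq_true_iff] at h2
      rw [nm_vec, tup_vec]
      exact h2
    · intro ha
      exact ⟨tup a, mem_en ha, vec_tup a⟩
  rw [Fintype.card_of_subtype _ h1, List.toFinset_card_of_nodup, List.length_map, en_length]
  refine List.Nodup.map ?_ en_nodup
  intro x y hxy
  rw [← tup_vec x, ← tup_vec y, hxy]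

/-- The dimension is 248. -/
theorem card_ix : Fintype.card (Ix U8) = 248 := by
  rw [Fintype.card_sum, card_roots, Fintype.card_fin]

/-- An enumeration of the basis. -/
noncomputable def ix : Fin 248 ≃ Ix U8 := (Fintype.equivFinOfCardEq card_ix).symm

/-- **Structure constants of the Lie algebra of type `E₈`**: `[x_i, x_j] = ∑ k, c i j k x_k`. -/
noncomputable def c (i j k : Fin 248) : ℤ := cc U8 (ix i) (ix j) (ix k)

theorem c_anti (i j k : Fin 248) : c i j k = -c j i k := cc_anti _ _ _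

theorem jacobi8 (i j k l : Fin 248) :
    ∑ p, (c i j p * c p k l + c j k p * c p i l + c k i p * c p j l) = 0 := by
  have h := jacobi pos8 (ix i) (ix j) (ix k) (ix l)
  unfold dd at h
  rw [← Equiv.sum_comp ix, ← Equiv.sum_comp ix, ← Equiv.sum_comp ix, ← Finset.sum_add_distrib,
    ← Finset.sum_add_distrib] at h
  exact h

/-- **The Killing form is not degenerate.** -/
theorem killing_det :
    (Matrix.of fun i j : Fin 248 => ∑ p, ∑ q, c i p q * c j q p).det ≠ 0 := by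
  classical
  have h1 : (Matrix.of fun i j : Fin 248 => ∑ p, ∑ q, c i p q * c j q p) =
      (Matrix.of fun i j => kap U8 i j).submatrix ix ix := by
    ext i j
    simp only [Matrix.of_apply, Matrix.submatrix_apply]
    unfold kap
    rw [← Equiv.sum_comp ix]
    refine Finset.sum_congr rfl fun p _ => ?_
    rw [← Equiv.sum_comp ix]
    rfl
  rw [h1, Matrix.det_submatrix_equiv_self]
  exact kap_det pos8 U8_diag

end Vale.Agent.P286.Ad.H163
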