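import Vale.Agent.P286.Ad.H163.Gen

/-!
# Chevalley generators of the Lie algebra of type `E₈`
-/

namespace Vale.Agent.P286.Ad.H163

open Matrix

theorem S8_un (i j : Fin 8) : S U8 (un i) (un j) = CartanMatrix.E₈ i j := by
  rw [S_un_un, U8_add]

theorem E8_off {i j : Fin 8} (h : i ≠ j) : (U8 + U8ᵀ) i j ≤ 0 := by
  rw [U8_add]
  fin_cases i <;> fin_cases j <;> first | exact absurd rfl h | decide

theorem single_ix (x : Ix U8) (k : Fin 248) :
    (Pi.single x 1 : Ix U8 → ℤ) (ix k) = if k = ix.symm x then 1 else 0 := by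
  by_cases h : k = ix.symm x
  · rw [if_pos h, h, Equiv.apply_symm_apply, Pi.single_eq_same]
  · have h' : ix k ≠ x := fun e => h (by rw [← e, Equiv.symm_apply_apply])
    rw [if_neg h, Pi.single_eq_of_ne h']

/-- **The Lie algebra of type `E₈` has Chevalley generators for the Cartan matrix of type `E₈`.** -/
theorem hasCartan8 : ∃ (h e f : Fin 8 → Fin 248) (s : ℤ), s ≠ 0 ∧
    (∀ i j k, c (h i) (h j) k = 0) ∧
    (∀ i j k, c (h i) (e j) k = if k = e j then CartanMatrix.E₈ i j else 0) ∧
    (∀ i j k, c (h i) (f j) k = if k = f j then -CartanMatrix.E₈ i j else 0) ∧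
    (∀ i j k, c (e i) (f j) k = if i = j ∧ k = h i then s else 0) := by
  refine ⟨fun i => ix.symm (.inl i), fun i => ix.symm (.inr (sr U8_diag i)),
    fun i => ix.symm (.inr (sn U8_diag i)), -1, by norm_num, ?_, ?_, ?_, ?_⟩
  · intro i j k
    unfold c
    rw [Equiv.apply_symm_apply, Equiv.apply_symm_apply]
    simp only [cc]
  · intro i j k
    unfold c
    rw [Equiv.apply_symm_apply, Equiv.apply_symm_apply, cc_tr, single_ix]
    show S U8 (un i) (un j) * _ = _
    rw [S8_un]
    split_ifs <;> simp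
  · intro i j k
    unfold c
    rw [Equiv.apply_symm_apply, Equiv.apply_symm_apply, cc_tr, single_ix]
    show S U8 (un i) (-un j) * _ = _
    rw [S_neg_right, S8_un]
    split_ifs <;> simp
  · intro i j k
    unfold c
    rw [Equiv.apply_symm_apply, Equiv.apply_symm_apply]
    by_cases hij : i = j
    · subst hij
      rw [cc_sr_sn, single_ix]
      by_cases hk : k = ix.symm (.inl i)
      · rw [if_pos hk, if_pos ⟨rfl, hk⟩]
      · rw [if_neg hk, if_neg fun h => hk h.2, neg_zero]
    · rw [cc_sr_sn_ne U8_diag hij (E8_off hij), if_neg fun h => hij h.1]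

end Vale.Agent.P286.Ad.H163
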