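import Vale.Agent.P286.Ad.H163.Kil

/-!
# The Lie algebra of type `E₈`

`U8` is the upper half of the Cartan matrix of type `E₈`; the roots are the vectors of norm two
of the `E₈` lattice.
-/

namespace Vale.Agent.P286.Ad.H163

open Matrix

/-- The upper half of the Cartan matrix of type `E₈`. -/
def U8 : Matrix (Fin 8) (Fin 8) ℤ :=
  !![1, 0, -1, 0, 0, 0, 0, 0;
     0, 1, 0, -1, 0, 0, 0, 0;
     0, 0, 1, -1, 0, 0, 0, 0;
     0, 0, 0, 1, -1, 0, 0, 0;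
     0, 0, 0, 0, 1, -1, 0, 0;
     0, 0, 0, 0, 0, 1, -1, 0;
     0, 0, 0, 0, 0, 0, 1, -1;
     0, 0, 0, 0, 0, 0, 0, 1]

theorem U8_add : U8 + U8ᵀ = CartanMatrix.E₈ := by decide

theorem U8_diag (i : Fin 8) : U8 i i = 1 := by
  revert i
  decide

theorem B8 (a : Fin 8 → ℤ) : B U8 a a =
    a 0 ^ 2 + a 1 ^ 2 + a 2 ^ 2 + a 3 ^ 2 + a 4 ^ 2 + a 5 ^ 2 + a 6 ^ 2 + a 7 ^ 2 - a 0 * a 2 -
      a 1 * a 3 - a 2 * a 3 - a 3 * a 4 - a 4 * a 5 - a 5 * a 6 - a 6 * a 7 := by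
  unfold B
  simp only [dotProduct, mulVec, Fin.sum_univ_eight, U8]
  simp
  ring

/-- Completing the squares. -/
theorem B8_sq (a : Fin 8 → ℤ) : 120 * B U8 a a =
    30 * (2 * a 0 - a 2) ^ 2 + 10 * (3 * a 2 - 2 * a 3) ^ 2 + 30 * (2 * a 1 - a 3) ^ 2 +
      30 * (2 * a 7 - a 6) ^ 2 + 10 * (3 * a 6 - 2 * a 5) ^ 2 + 5 * (4 * a 5 - 3 * a 4) ^ 2 +
      3 * (5 * a 4 - 4 * a 3) ^ 2 + 2 * a 3 ^ 2 := by
  rw [B8]
  ring

theorem pos8 : Pos U8 := by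
  intro a ha
  by_contra h
  apply ha
  have h0 := B8_sq a
  have q1 := sq_nonneg (2 * a 0 - a 2)
  have q2 := sq_nonneg (3 * a 2 - 2 * a 3)
  have q3 := sq_nonneg (2 * a 1 - a 3)
  have q4 := sq_nonneg (2 * a 7 - a 6)
  have q5 := sq_nonneg (3 * a 6 - 2 * a 5)
  have q6 := sq_nonneg (4 * a 5 - 3 * a 4)
  have q7 := sq_nonneg (5 * a 4 - 4 * a 3)
  have q8 := sq_nonneg (a 3)
  have z3 : a 3 = 0 := pow_eq_zero_iff (two_ne_zero) |>.1 (by omega : a 3 ^ 2 = 0)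
  have z7 : 5 * a 4 - 4 * a 3 = 0 :=
    pow_eq_zero_iff (two_ne_zero) |>.1 (by omega : (5 * a 4 - 4 * a 3) ^ 2 = 0)
  have z6 : 4 * a 5 - 3 * a 4 = 0 :=
    pow_eq_zero_iff (two_ne_zero) |>.1 (by omega : (4 * a 5 - 3 * a 4) ^ 2 = 0)
  have z5 : 3 * a 6 - 2 * a 5 = 0 :=
    pow_eq_zero_iff (two_ne_zero) |>.1 (by omega : (3 * a 6 - 2 * a 5) ^ 2 = 0)
  have z4 : 2 * a 7 - a 6 = 0 :=
    pow_eq_zero_iff (two_ne_zero) |>.1 (by omega : (2 * a 7 - a 6) ^ 2 = 0)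
  have z1 : 2 * a 1 - a 3 = 0 :=
    pow_eq_zero_iff (two_ne_zero) |>.1 (by omega : (2 * a 1 - a 3) ^ 2 = 0)
  have z2 : 3 * a 2 - 2 * a 3 = 0 :=
    pow_eq_zero_iff (two_ne_zero) |>.1 (by omega : (3 * a 2 - 2 * a 3) ^ 2 = 0)
  have z0 : 2 * a 0 - a 2 = 0 :=
    pow_eq_zero_iff (two_ne_zero) |>.1 (by omega : (2 * a 0 - a 2) ^ 2 = 0)
  funext i
  fin_cases i
  · show a 0 = 0
    omega
  · show a 1 = 0
    omega
  · show a 2 = 0
    omega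
  · show a 3 = 0
    omega
  · show a 4 = 0
    omega
  · show a 5 = 0
    omega
  · show a 6 = 0
    omega
  · show a 7 = 0
    omega

theorem abs_le_of_sq {x m : ℤ} (hm : 0 ≤ m) (h : x ^ 2 < (m + 1) ^ 2) : -m ≤ x ∧ x ≤ m := by
  have := abs_lt_of_sq_lt_sq h (by omega)
  rw [abs_lt] at this
  omega

/-- The roots are bounded. -/
theorem root_bound (a : Fin 8 → ℤ) (ha : B U8 a a = 1) (i : Fin 8) : -7 ≤ a i ∧ a i ≤ 7 := by
  have h0 := B8_sq a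
  rw [ha] at h0
  have q1 := sq_nonneg (2 * a 0 - a 2)
  have q2 := sq_nonneg (3 * a 2 - 2 * a 3)
  have q3 := sq_nonneg (2 * a 1 - a 3)
  have q4 := sq_nonneg (2 * a 7 - a 6)
  have q5 := sq_nonneg (3 * a 6 - 2 * a 5)
  have q6 := sq_nonneg (4 * a 5 - 3 * a 4)
  have q7 := sq_nonneg (5 * a 4 - 4 * a 3)
  have q8 := sq_nonneg (a 3)
  have b3 := abs_le_of_sq (x := a 3) (m := 7) (by norm_num) (by norm_num; omega)
  have b4 := abs_le_of_sq (x := 5 * a 4 - 4 * a 3) (m := 6) (by norm_num) (by norm_num; omega)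
  have b5 := abs_le_of_sq (x := 4 * a 5 - 3 * a 4) (m := 4) (by norm_num) (by norm_num; omega)
  have b6 := abs_le_of_sq (x := 3 * a 6 - 2 * a 5) (m := 3) (by norm_num) (by norm_num; omega)
  have b7 := abs_le_of_sq (x := 2 * a 7 - a 6) (m := 2) (by norm_num) (by norm_num; omega)
  have b1 := abs_le_of_sq (x := 2 * a 1 - a 3) (m := 2) (by norm_num) (by norm_num; omega)
  have b2 := abs_le_of_sq (x := 3 * a 2 - 2 * a 3) (m := 3) (by norm_num) (by norm_num; omega)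
  have b0 := abs_le_of_sq (x := 2 * a 0 - a 2) (m := 2) (by norm_num) (by norm_num; omega)
  fin_cases i
  · show -7 ≤ a 0 ∧ a 0 ≤ 7
    omega
  · show -7 ≤ a 1 ∧ a 1 ≤ 7
    omega
  · show -7 ≤ a 2 ∧ a 2 ≤ 7
    omega
  · show -7 ≤ a 3 ∧ a 3 ≤ 7
    omega
  · show -7 ≤ a 4 ∧ a 4 ≤ 7
    omega
  · show -7 ≤ a 5 ∧ a 5 ≤ 7
    omega
  · show -7 ≤ a 6 ∧ a 6 ≤ 7
    omega
  · show -7 ≤ a 7 ∧ a 7 ≤ 7
    omega

theorem finite8 : {a : Fin 8 → ℤ | B U8 a a = 1}.Finite := by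
  refine (Set.finite_Icc (fun _ => (-7 : ℤ)) (fun _ => (7 : ℤ))).subset ?_
  intro a ha
  exact ⟨fun i => (root_bound a ha i).1, fun i => (root_bound a ha i).2⟩

noncomputable instance : Fintype (Rt U8) := finite8.fintype

end Vale.Agent.P286.Ad.H163
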