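import Vale.Agent.P286.Ad.H163.Count

/-!
# The Lie algebra of a positive definite even lattice is generated by the simple root vectors
-/

namespace Vale.Agent.P286.Ad.H163

open Matrix

variable {r : ℕ} {U : Matrix (Fin r) (Fin r) ℤ}

theorem B_un (h1 : ∀ i, U i i = 1) (i : Fin r) : B U (un i) (un i) = 1 := by
  unfold B
  rw [single_one_dotProduct, mulVec_single_one]
  exact h1 i

/-- The simple root `i`. -/
def sr (h1 : ∀ i, U i i = 1) (i : Fin r) : Rt U := ⟨un i, B_un h1 i⟩

/-- The negative of the simple root `i`. -/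
def sn (h1 : ∀ i, U i i = 1) (i : Fin r) : Rt U :=
  ⟨-un i, by rw [B_neg_self]; exact B_un h1 i⟩

theorem S_un_un (i j : Fin r) : S U (un i) (un j) = (U + Uᵀ) i j := by
  unfold S B
  rw [single_one_dotProduct, mulVec_single_one, single_one_dotProduct, mulVec_single_one]
  rfl

/-- The size of a vector. -/
def sz (a : Fin r → ℤ) : ℕ := ∑ i, (a i).natAbs

theorem sz_sub {a : Fin r → ℤ} {i : Fin r} (h : 0 < a i) : sz (a - un i) < sz a := by
  unfold sz
  refine Finset.sum_lt_sum (fun j _ => ?_) ⟨i, Finset.mem_univ _, ?_⟩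
  · rw [Pi.sub_apply]
    by_cases hj : j = i
    · subst hj
      rw [un, Pi.single_eq_same]
      omega
    · rw [un, Pi.single_eq_of_ne hj, sub_zero]
  · rw [Pi.sub_apply, un, Pi.single_eq_same]
    omega

theorem sz_add {a : Fin r → ℤ} {i : Fin r} (h : a i < 0) : sz (a + un i) < sz a := by
  unfold sz
  refine Finset.sum_lt_sum (fun j _ => ?_) ⟨i, Finset.mem_univ _, ?_⟩
  · rw [Pi.add_apply]
    by_cases hj : j = i
    · subst hj
      rw [un, Pi.single_eq_same]
      omega
    · rw [un, Pi.single_eq_of_ne hj, add_zero]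
  · rw [Pi.add_apply, un, Pi.single_eq_same]
    omega

/-- A set of roots which contains the simple roots and their negatives, and all roots which are
sums of two of its members, contains all roots. -/
theorem all_roots (hU : Pos U) (h1 : ∀ i, U i i = 1) (P : Rt U → Prop)
    (hp : ∀ i, P (sr h1 i)) (hn : ∀ i, P (sn h1 i))
    (hadd : ∀ a b d : Rt U, P a → P b → d.1 = a.1 + b.1 → P d) (a : Rt U) : P a := by
  induction hm : sz a.1 using Nat.strong_induction_on generalizing a with
  | _ m ih =>
    subst hm
    have h2 : ∑ i, a.1 i * S U (un i) a.1 = 2 := by rw [sum_S_un, S_self a.2]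
    obtain ⟨i, hi⟩ : ∃ i, 0 < a.1 i * S U (un i) a.1 := by
      by_contra hcon
      have : ∑ i, a.1 i * S U (un i) a.1 ≤ 0 :=
        Finset.sum_nonpos fun i _ => not_lt.1 fun h => hcon ⟨i, h⟩
      omega
    rcases lt_trichotomy (a.1 i) 0 with h | h | h
    · have hs : S U (un i) a.1 < 0 := by
        by_contra hcon
        have := mul_nonpos_of_nonpos_of_nonneg h.le (not_lt.1 hcon)
        omega
      have hlo := S_ge hU (B_un h1 i) a.2
      by_cases h3 : S U (un i) a.1 = -2
      · have h4 := add_eq_zero_of_S hU (B_un h1 i) a.2 h3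
        have : a = sn h1 i := by
          apply Subtype.ext
          show a.1 = -un i
          rw [eq_neg_iff_add_eq_zero, add_comm]
          exact h4
        rw [this]
        exact hn i
      · have h5 : B U (a.1 + un i) (a.1 + un i) = 1 := by
          rw [B_add_self, a.2, B_un h1 i, S_comm]
          omega
        have h6 := ih _ (sz_add h) ⟨a.1 + un i, h5⟩ rfl
        refine hadd _ _ a h6 (hn i) ?_
        show a.1 = a.1 + un i + -un i
        rw [add_neg_cancel_right]
    · rw [h, zero_mul] at hi
      omega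
    · have hs : 0 < S U (un i) a.1 := by
        by_contra hcon
        have := mul_nonpos_of_nonneg_of_nonpos h.le (not_lt.1 hcon)
        omega
      have hhi := S_le hU (B_un h1 i) a.2
      by_cases h3 : S U (un i) a.1 = 2
      · have h4 : S U (-un i) a.1 = -2 := by rw [S_neg_left, h3]
        have h4' := add_eq_zero_of_S hU (a := -un i) (by rw [B_neg_self]; exact B_un h1 i) a.2 h4
        have : a = sr h1 i := by
          apply Subtype.ext
          show a.1 = un i
          have h5 : a.1 + -un i = 0 := by rw [add_comm]; exact h4'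
          rw [← sub_eq_add_neg] at h5
          exact sub_eq_zero.1 h5
        rw [this]
        exact hp i
      · have h5 : B U (a.1 - un i) (a.1 - un i) = 1 := by
          rw [sub_eq_add_neg, B_add_self, a.2, B_neg_self, B_un h1 i, S_neg_right, S_comm]
          omega
        have h6 := ih _ (sz_sub h) ⟨a.1 - un i, h5⟩ rfl
        refine hadd _ _ a h6 (hp i) ?_
        show a.1 = a.1 - un i + un i
        rw [sub_add_cancel]

/-! ### Brackets of the generators -/

/-- `[e_a, e_b]` for a root `a + b`. -/
theorem cc_add {a b d : Rt U} (h : d.1 = a.1 + b.1) (k : Ix U) :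
    cc U (.inr a) (.inr b) k = sg U a.1 b.1 * (Pi.single (Sum.inr d : Ix U) 1 : Ix U → ℤ) k := by
  rcases k with k | k
  · have h0 : ¬ a.1 + b.1 = 0 := by
      rw [← h]
      exact root_ne_zero d
    simp only [cc, if_neg h0]
    rw [Pi.single_eq_of_ne (by simp), mul_zero]
  · by_cases hk : k = d
    · subst hk
      simp only [cc, if_pos h]
      rw [Pi.single_eq_same, mul_one]
    · have h0 : ¬ k.1 = a.1 + b.1 := by
        rw [← h]
        exact fun e => hk (Subtype.ext e)
      simp only [cc, if_neg h0]
      rw [Pi.single_eq_of_ne (by simpa using hk), mul_zero]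

/-- `[e_i, e_(-i)] = -h_i`. -/
theorem cc_sr_sn (h1 : ∀ i, U i i = 1) (i : Fin r) (k : Ix U) :
    cc U (.inr (sr h1 i)) (.inr (sn h1 i)) k =
      -(Pi.single (Sum.inl i : Ix U) 1 : Ix U → ℤ) k := by
  have h0 : (sr h1 i).1 + (sn h1 i).1 = 0 := add_neg_cancel (un i)
  rcases k with k | k
  · simp only [cc, if_pos h0]
    by_cases hk : k = i
    · subst hk
      rw [Pi.single_eq_same]
      show -(un k k) = -1
      rw [un, Pi.single_eq_same]
    · rw [Pi.single_eq_of_ne (by simpa using hk)]
      show -(un i k) = -0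
      rw [un, Pi.single_eq_of_ne hk]
  · have h3 : ¬ k.1 = (sr h1 i).1 + (sn h1 i).1 := by
      rw [h0]
      exact root_ne_zero k
    simp only [cc, if_neg h3]
    rw [Pi.single_eq_of_ne (by simp), neg_zero]

/-- `[e_i, e_(-j)] = 0` for different simple roots. -/
theorem cc_sr_sn_ne (h1 : ∀ i, U i i = 1) {i j : Fin r} (hij : i ≠ j)
    (hoff : (U + Uᵀ) i j ≤ 0) (k : Ix U) :
    cc U (.inr (sr h1 i)) (.inr (sn h1 j)) k = 0 := by
  have h4 : (sr h1 i).1 + (sn h1 j).1 ≠ 0 := by
    intro h
    have h5 := congrFun h i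
    have h6 : un i i + -un j i = (0 : ℤ) := h5
    rw [un, un, Pi.single_eq_same, Pi.single_eq_of_ne hij] at h6
    norm_num at h6
  rcases k with k | k
  · simp only [cc, if_neg h4]
  · have h3 : ¬ k.1 = (sr h1 i).1 + (sn h1 j).1 := by
      intro h
      have h5 := S_root_add h
      have h6 : S U (un i) (-un j) = -1 := h5
      rw [S_neg_right, S_un_un] at h6
      omega
    simp only [cc, if_neg h3]

/-- `[h_i, e_a] = (i, a) e_a`. -/
theorem cc_tr (i : Fin r) (a : Rt U) (k : Ix U) : cc U (.inl i) (.inr a) k =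
    S U (un i) a.1 * (Pi.single (Sum.inr a : Ix U) 1 : Ix U → ℤ) k := by
  rcases k with k | k
  · simp only [cc]
    rw [Pi.single_eq_of_ne (by simp), mul_zero]
  · by_cases hk : k = a
    · subst hk
      simp only [cc, if_true]
      rw [Pi.single_eq_same, mul_one]
    · simp only [cc, if_neg hk]
      rw [Pi.single_eq_of_ne (by simpa using hk), mul_zero]

end Vale.Agent.P286.Ad.H163
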