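import Vale.Agent.P286.Ad.H163.Str

/-!
# The Jacobi identity of the Lie algebra of a positive definite even lattice
-/

namespace Vale.Agent.P286.Ad.H163

open Matrix

variable {r : ℕ} {U : Matrix (Fin r) (Fin r) ℤ} [Fintype (Rt U)]

theorem dd_tt (i j : Fin r) (k l : Ix U) : dd U (.inl i) (.inl j) k l = 0 := by
  unfold dd
  exact Finset.sum_eq_zero fun p _ => by simp only [cc, zero_mul]

theorem dd_tr (i : Fin r) (a : Rt U) (k l : Ix U) :
    dd U (.inl i) (.inr a) k l = S U (un i) a.1 * cc U (.inr a) k l := by
  unfold dd
  rw [Finset.sum_eq_single (Sum.inr a : Ix U)]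
  · simp only [cc, if_true]
  · intro p _ hp
    rcases p with p | p
    · simp only [cc, zero_mul]
    · have : ¬ p = a := fun h => hp (by rw [h])
      simp only [cc, if_neg this, zero_mul]
  · intro h
    exact absurd (Finset.mem_univ _) h

theorem dd_rt (a : Rt U) (i : Fin r) (k l : Ix U) :
    dd U (.inr a) (.inl i) k l = -S U (un i) a.1 * cc U (.inr a) k l := by
  unfold dd
  rw [Finset.sum_eq_single (Sum.inr a : Ix U)]
  · simp only [cc, if_true]
  · intro p _ hp
    rcases p with p | p
    · simp only [cc, zero_mul]
    · have : ¬ p = a := fun h => hp (by rw [h])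
      simp only [cc, if_neg this, zero_mul]
  · intro h
    exact absurd (Finset.mem_univ _) h

theorem dd_rrt_root (a b : Rt U) (i : Fin r) (l : Rt U) :
    dd U (.inr a) (.inr b) (.inl i) (.inr l) =
      -S U (un i) l.1 * cc U (.inr a) (.inr b) (.inr l) := by
  unfold dd
  rw [Finset.sum_eq_single (Sum.inr l : Ix U)]
  · simp only [cc, if_true]
    ring
  · intro p _ hp
    rcases p with p | p
    · simp only [cc, mul_zero]
    · have : ¬ l = p := fun h => hp (by rw [h])
      simp only [cc, if_neg this, mul_zero]
  · intro h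
    exact absurd (Finset.mem_univ _) h

theorem dd_rrt_torus (a b : Rt U) (i l : Fin r) :
    dd U (.inr a) (.inr b) (.inl i) (.inl l) = 0 := by
  unfold dd
  refine Finset.sum_eq_zero fun p _ => ?_
  rcases p with p | p <;> simp only [cc, mul_zero]

/-- Two torus elements and a root. -/
theorem jac_ttr (i j : Fin r) (a : Rt U) (l : Ix U) :
    dd U (.inl i) (.inl j) (.inr a) l + dd U (.inl j) (.inr a) (.inl i) l +
      dd U (.inr a) (.inl i) (.inl j) l = 0 := by
  rw [dd_tt, dd_tr, dd_rt]
  rcases l with l | l
  · simp only [cc]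
    ring
  · simp only [cc]
    split_ifs <;> ring

/-- A torus element and two roots. -/
theorem jac_trr (i : Fin r) (a b : Rt U) (l : Ix U) :
    dd U (.inl i) (.inr a) (.inr b) l + dd U (.inr a) (.inr b) (.inl i) l +
      dd U (.inr b) (.inl i) (.inr a) l = 0 := by
  rw [dd_tr, dd_rt, cc_anti (.inr b) (.inr a) l]
  rcases l with l | l
  · rw [dd_rrt_torus]
    simp only [cc]
    by_cases h : a.1 + b.1 = 0
    · rw [if_pos h]
      have h1 : S U (un i) a.1 + S U (un i) b.1 = 0 := by
        rw [← S_add_right, h]
        simp [S, B]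
      linear_combination -(a.1 l) * h1
    · rw [if_neg h]
      ring
  · rw [dd_rrt_root]
    simp only [cc]
    by_cases h : l.1 = a.1 + b.1
    · rw [if_pos h, h, S_add_right]
      ring
    · rw [if_neg h]
      ring

/-- **The Jacobi identity.** -/
theorem jacobi (hU : Pos U) (i j k l : Ix U) :
    dd U i j k l + dd U j k i l + dd U k i j l = 0 := by
  rcases i with i | a <;> rcases j with j | b <;> rcases k with k | d
  · rw [dd_tt, dd_tt, dd_tt]
    norm_num
  · exact jac_ttr i j d l
  · have := jac_ttr k i b l
    linear_combination this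
  · exact jac_trr i b d l
  · have := jac_ttr j k a l
    linear_combination this
  · have := jac_trr j d a l
    linear_combination this
  · have := jac_trr k a b l
    linear_combination this
  · rcases l with l | l
    · rw [dd_torus, dd_torus, dd_torus]
      have e1 : b.1 + d.1 + a.1 = a.1 + b.1 + d.1 := by ring
      have e2 : d.1 + a.1 + b.1 = a.1 + b.1 + d.1 := by ring
      rw [e1, e2]
      by_cases h : a.1 + b.1 + d.1 = 0
      · rw [if_pos h, if_pos h, if_pos h]
        obtain ⟨h1, h2⟩ := jac_torus a.2 b.2 d.2 h
        rw [h1, h2]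
        have := congrFun h l
        simp only [Pi.add_apply, Pi.zero_apply] at this
        linear_combination (sg U a.1 b.1) * this
      · rw [if_neg h, if_neg h, if_neg h]
        norm_num
    · rw [dd_root, dd_root, dd_root]
      have e1 : b.1 + d.1 + a.1 = a.1 + b.1 + d.1 := by ring
      have e2 : d.1 + a.1 + b.1 = a.1 + b.1 + d.1 := by ring
      rw [e1, e2]
      by_cases h : l.1 = a.1 + b.1 + d.1
      · rw [if_pos h, if_pos h, if_pos h]
        exact jac_root hU a.2 b.2 d.2 (by rw [← h]; exact l.2)
      · rw [if_neg h, if_neg h, if_neg h]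
        norm_num

end Vale.Agent.P286.Ad.H163
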