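import Vale.Agent.P286.Ad.H163.Jac

/-!
# The Killing form of the Lie algebra of a positive definite even lattice is not degenerate
-/

namespace Vale.Agent.P286.Ad.H163

open Matrix

variable {r : ℕ} {U : Matrix (Fin r) (Fin r) ℤ} [Fintype (Rt U)]

/-- The Killing form. -/
def kap (U : Matrix (Fin r) (Fin r) ℤ) [Fintype (Rt U)] (i j : Ix U) : ℤ :=
  ∑ p, ∑ q, cc U i p q * cc U j q p

theorem kap_comm (i j : Ix U) : kap U i j = kap U j i := by
  unfold kap
  rw [Finset.sum_comm]
  refine Finset.sum_congr rfl fun p _ => Finset.sum_congr rfl fun q _ => ?_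
  ring

omit [Fintype (Rt U)] in
theorem root_ne_zero (a : Rt U) : a.1 ≠ 0 := by
  intro h
  have := a.2
  rw [h] at this
  simp [B] at this

theorem kap_tt (i j : Fin r) :
    kap U (.inl i) (.inl j) = ∑ b : Rt U, S U (un i) b.1 * S U (un j) b.1 := by
  unfold kap
  rw [Fintype.sum_sum_type]
  have h1 : ∑ p : Fin r, ∑ q, cc U (.inl i) (.inl p) q * cc U (.inl j) q (.inl p) = 0 :=
    Finset.sum_eq_zero fun p _ => Finset.sum_eq_zero fun q _ => by simp only [cc, zero_mul]
  rw [h1, zero_add]
  refine Finset.sum_congr rfl fun b _ => ?_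
  rw [Finset.sum_eq_single (Sum.inr b : Ix U)]
  · simp only [cc, if_true]
  · intro q _ hq
    rcases q with q | q
    · simp only [cc, zero_mul]
    · have : ¬ q = b := fun h => hq (by rw [h])
      simp only [cc, if_neg this, zero_mul]
  · intro h
    exact absurd (Finset.mem_univ _) h

theorem kap_tr (i : Fin r) (a : Rt U) : kap U (.inl i) (.inr a) = 0 := by
  unfold kap
  refine Finset.sum_eq_zero fun p _ => Finset.sum_eq_zero fun q _ => ?_
  rcases p with p | p <;> rcases q with q | q
  · simp only [cc, zero_mul]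
  · simp only [cc, zero_mul]
  · simp only [cc, zero_mul]
  · by_cases h : q = p
    · subst h
      have : ¬ q.1 = a.1 + q.1 := by
        intro h
        have h2 : a.1 = 0 := by
          have h3 : 0 + q.1 = a.1 + q.1 := by rw [zero_add]; exact h
          exact (add_right_cancel h3).symm
        exact root_ne_zero a h2
      simp only [cc, if_neg this, mul_zero]
    · simp only [cc, if_neg h, zero_mul]

theorem kap_rt (a : Rt U) (i : Fin r) : kap U (.inr a) (.inl i) = 0 := by
  rw [kap_comm, kap_tr]

theorem kap_rr {a b : Rt U} (h : a.1 + b.1 ≠ 0) : kap U (.inr a) (.inr b) = 0 := by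
  have h' : b.1 + a.1 ≠ 0 := by rw [add_comm]; exact h
  unfold kap
  refine Finset.sum_eq_zero fun p _ => Finset.sum_eq_zero fun q _ => ?_
  rcases p with p | p <;> rcases q with q | q
  · simp only [cc, zero_mul]
  · by_cases hq : q = a
    · subst hq
      simp only [cc, if_neg h', mul_zero]
    · simp only [cc, if_neg hq, zero_mul]
  · by_cases hp : p = b
    · subst hp
      simp only [cc, if_neg h, zero_mul]
    · simp only [cc, if_neg hp, mul_zero]
  · by_cases hq : q.1 = a.1 + p.1
    · have : ¬ p.1 = b.1 + q.1 := by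
        intro hp
        rw [hq] at hp
        apply h
        have h3 : 0 + p.1 = (a.1 + b.1) + p.1 := by
          rw [zero_add]
          calc p.1 = b.1 + (a.1 + p.1) := hp
            _ = (a.1 + b.1) + p.1 := by ring
        exact (add_right_cancel h3).symm
      simp only [cc, if_neg this, mul_zero]
    · simp only [cc, if_neg hq, zero_mul]

theorem kap_opp {a b : Rt U} (h : a.1 + b.1 = 0) : kap U (.inr a) (.inr b) < 0 := by
  have h' : b.1 + a.1 = 0 := by rw [add_comm]; exact h
  have hb : b.1 = -a.1 := by rw [eq_neg_iff_add_eq_zero]; exact h'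
  have hab : ¬ b = a := by
    intro e
    rw [e] at h
    have h3 : (2 : ℤ) • a.1 = 0 := by rw [two_smul]; exact h
    have h4 : a.1 = 0 := by
      rcases smul_eq_zero.1 h3 with h5 | h5
      · norm_num at h5
      · exact h5
    exact root_ne_zero a h4
  unfold kap
  rw [Fintype.sum_sum_type]
  have h1 : ∑ p : Fin r, ∑ q, cc U (.inr a) (.inl p) q * cc U (.inr b) q (.inl p) = -2 := by
    have : ∀ p : Fin r, ∑ q, cc U (.inr a) (.inl p) q * cc U (.inr b) q (.inl p) =
        -(a.1 p * S U (un p) a.1) := by
      intro p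
      rw [Finset.sum_eq_single (Sum.inr a : Ix U)]
      · simp only [cc, if_pos h', if_true]
        have := congrFun hb p
        simp only [Pi.neg_apply] at this
        rw [this]
        ring
      · intro q _ hq
        rcases q with q | q
        · simp only [cc, zero_mul]
        · have : ¬ q = a := fun h => hq (by rw [h])
          simp only [cc, if_neg this, zero_mul]
      · intro h
        exact absurd (Finset.mem_univ _) h
    simp only [this]
    rw [Finset.sum_neg_distrib, sum_S_un, S_self a.2]
  have h2 : ∑ p : Rt U, ∑ q, cc U (.inr a) (.inr p) q * cc U (.inr b) q (.inr p) =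
      ∑ p : Rt U, ∑ q : Fin r,
        cc U (.inr a) (.inr p) (.inl q) * cc U (.inr b) (.inl q) (.inr p) +
      ∑ p : Rt U, ∑ q : Rt U,
        cc U (.inr a) (.inr p) (.inr q) * cc U (.inr b) (.inr q) (.inr p) := by
    rw [← Finset.sum_add_distrib]
    refine Finset.sum_congr rfl fun p _ => ?_
    rw [Fintype.sum_sum_type]
  have h3 : ∑ p : Rt U, ∑ q : Fin r,
      cc U (.inr a) (.inr p) (.inl q) * cc U (.inr b) (.inl q) (.inr p) = -2 := by
    rw [Finset.sum_eq_single b]
    · have : ∀ q : Fin r, cc U (.inr a) (.inr b) (.inl q) * cc U (.inr b) (.inl q) (.inr b) =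
          -(a.1 q * S U (un q) a.1) := by
        intro q
        simp only [cc, if_pos h, if_true]
        rw [hb, S_neg_right]
        ring
      simp only [this]
      rw [Finset.sum_neg_distrib, sum_S_un, S_self a.2]
    · intro p _ hp
      refine Finset.sum_eq_zero fun q _ => ?_
      simp only [cc, if_neg hp, mul_zero]
    · intro h
      exact absurd (Finset.mem_univ _) h
  have h4 : ∑ p : Rt U, ∑ q : Rt U,
      cc U (.inr a) (.inr p) (.inr q) * cc U (.inr b) (.inr q) (.inr p) ≤ 0 := by
    refine Finset.sum_nonpos fun p _ => Finset.sum_nonpos fun q _ => ?_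
    by_cases hq : q.1 = a.1 + p.1
    · have hp : p.1 = b.1 + q.1 := by
        rw [hq, hb]
        ring
      simp only [cc, if_pos hq, if_pos hp]
      rw [hq, hb, sg_neg_left, sg_add_right, sg_self U a.2]
      have := sg_sq U a.1 p.1
      nlinarith
    · simp only [cc, if_neg hq, zero_mul]
      exact le_refl _
  rw [h1, h2, h3]
  omega

/-- **The Killing form is not degenerate.** -/
theorem kap_det (hU : Pos U) (h1 : ∀ i, U i i = 1) :
    (Matrix.of fun i j => kap U i j).det ≠ 0 := by
  classical
  intro hdet
  obtain ⟨v, hv, hz⟩ := Matrix.exists_mulVec_eq_zero_iff.2 hdet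
  apply hv
  have hrow : ∀ i : Ix U, ∑ j, kap U i j * v j = 0 := fun i => congrFun hz i
  -- the root coordinates
  have hr : ∀ a : Rt U, v (.inr a) = 0 := by
    intro a
    have hb : B U (-a.1) (-a.1) = 1 := by rw [B_neg_self]; exact a.2
    have h := hrow (.inr ⟨-a.1, hb⟩)
    rw [Finset.sum_eq_single (Sum.inr a : Ix U)] at h
    · have h2 := kap_opp (U := U) (a := ⟨-a.1, hb⟩) (b := a) (by simp)
      rcases mul_eq_zero.1 h with h3 | h3
      · omega
      · exact h3
    · intro j _ hj
      rcases j with j | j
      · rw [kap_rt, zero_mul]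
      · rw [kap_rr, zero_mul]
        intro h3
        apply hj
        congr 1
        apply Subtype.ext
        have h4 : j.1 + -a.1 = 0 := by rw [add_comm]; exact h3
        rw [← sub_eq_add_neg] at h4
        exact sub_eq_zero.1 h4
    · intro h
      exact absurd (Finset.mem_univ _) h
  -- the torus coordinates
  set w : Fin r → ℤ := fun i => v (.inl i) with hw
  have ht : ∀ i : Fin r, ∑ j : Fin r, (∑ b : Rt U, S U (un i) b.1 * S U (un j) b.1) * w j = 0 := by
    intro i
    have h := hrow (.inl i)
    rw [Fintype.sum_sum_type] at h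
    have h2 : ∑ a : Rt U, kap U (.inl i) (.inr a) * v (.inr a) = 0 :=
      Finset.sum_eq_zero fun a _ => by rw [hr a, mul_zero]
    rw [h2, add_zero] at h
    simpa only [kap_tt] using h
  have hsq : ∑ b : Rt U, S U w b.1 * S U w b.1 = 0 := by
    have h5 : ∀ b : Rt U, S U w b.1 * S U w b.1 =
        ∑ i, ∑ j, w i * (S U (un i) b.1 * S U (un j) b.1 * w j) := by
      intro b
      rw [← sum_S_un, Finset.sum_mul_sum]
      refine Finset.sum_congr rfl fun i _ => Finset.sum_congr rfl fun j _ => ?_
      ring
    simp only [h5]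
    rw [Finset.sum_comm]
    refine Finset.sum_eq_zero fun i _ => ?_
    rw [Finset.sum_comm]
    have h6 := ht i
    have h7 : ∑ j, ∑ b : Rt U, w i * (S U (un i) b.1 * S U (un j) b.1 * w j) =
        w i * ∑ j : Fin r, (∑ b : Rt U, S U (un i) b.1 * S U (un j) b.1) * w j := by
      rw [Finset.mul_sum]
      refine Finset.sum_congr rfl fun j _ => ?_
      rw [Finset.sum_mul, Finset.mul_sum]
    rw [h7, h6, mul_zero]
  have hS : ∀ b : Rt U, S U w b.1 = 0 := by
    intro b
    have h8 := (Finset.sum_eq_zero_iff_of_nonneg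
      (fun b _ => mul_self_nonneg (S U w b.1))).1 hsq b (Finset.mem_univ _)
    exact mul_self_eq_zero.1 h8
  have hun : ∀ i : Fin r, B U (un i) (un i) = 1 := by
    intro i
    unfold B
    rw [single_one_dotProduct, mulVec_single_one]
    exact h1 i
  have hw0 : S U w w = 0 := by
    rw [← sum_S_un]
    refine Finset.sum_eq_zero fun i _ => ?_
    have := hS ⟨un i, hun i⟩
    rw [S_comm, this, mul_zero]
  have hwz : w = 0 := by
    refine eq_zero_of_B hU ?_
    unfold S at hw0
    omega
  funext i
  rcases i with i | a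
  · exact congrFun hwz i
  · exact hr a

end Vale.Agent.P286.Ad.H163
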