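import Mathlib

/-!
# The Lie algebra of a positive definite even lattice (structure constants over the integers)

`U` is an integer matrix, `B a b = aᵀ U b`, `S a b = B a b + B b a` the symmetric form, roots are
the vectors with `B a a = 1` (norm two).  Basis: `h_i` (`i < r`) and `e_a` (`a` a root), with
`[h, e_a] = S h a • e_a`, `[e_a, e_b] = (-1) ^ B a b • e_(a+b)` if `a + b` is a root and
`[e_a, e_(-a)] = - a`.
-/

namespace Vale.Agent.P286.Ad.H163

open Matrix

variable {r : ℕ} (U : Matrix (Fin r) (Fin r) ℤ)

/-- The bilinear form. -/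
def B (a b : Fin r → ℤ) : ℤ := a ⬝ᵥ (U *ᵥ b)

/-- The symmetric form. -/
def S (a b : Fin r → ℤ) : ℤ := B U a b + B U b a

theorem B_add_left (a b d : Fin r → ℤ) : B U (a + b) d = B U a d + B U b d := by
  simp [B, add_dotProduct]

theorem B_add_right (a b d : Fin r → ℤ) : B U a (b + d) = B U a b + B U a d := by
  simp [B, mulVec_add, dotProduct_add]

theorem B_neg_left (a b : Fin r → ℤ) : B U (-a) b = -B U a b := by
  simp [B, neg_dotProduct]

theorem B_neg_right (a b : Fin r → ℤ) : B U a (-b) = -B U a b := by
  simp [B, mulVec_neg, dotProduct_neg]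

theorem S_comm (a b : Fin r → ℤ) : S U a b = S U b a := by
  unfold S
  ring

/-- The roots. -/
abbrev Rt : Type := {a : Fin r → ℤ // B U a a = 1}

/-- The sign. -/
def sg (a b : Fin r → ℤ) : ℤ := ((B U a b).negOnePow : ℤˣ)

theorem sg_sq (a b : Fin r → ℤ) : sg U a b * sg U a b = 1 := by
  unfold sg
  rw [← Units.val_mul, ← Int.negOnePow_add]
  have : Even (B U a b + B U a b) := ⟨_, rfl⟩
  rw [Int.negOnePow_even _ this]
  rfl

theorem sg_add_left (a b d : Fin r → ℤ) : sg U (a + b) d = sg U a d * sg U b d := by
  unfold sg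
  rw [B_add_left, Int.negOnePow_add, Units.val_mul]

theorem sg_add_right (a b d : Fin r → ℤ) : sg U a (b + d) = sg U a b * sg U a d := by
  unfold sg
  rw [B_add_right, Int.negOnePow_add, Units.val_mul]

theorem sg_neg_left (a b : Fin r → ℤ) : sg U (-a) b = sg U a b := by
  unfold sg
  rw [B_neg_left, Int.negOnePow_neg]

theorem sg_neg_right (a b : Fin r → ℤ) : sg U a (-b) = sg U a b := by
  unfold sg
  rw [B_neg_right, Int.negOnePow_neg]

theorem sg_self {a : Fin r → ℤ} (ha : B U a a = 1) : sg U a a = -1 := by
  unfold sg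
  rw [ha]
  simp

/-- Positive definite. -/
def Pos : Prop := ∀ a : Fin r → ℤ, a ≠ 0 → 0 < B U a a

theorem sg_swap_even {a b : Fin r → ℤ} (h : Even (S U a b)) : sg U b a = sg U a b := by
  have h1 : sg U a b * sg U b a = 1 := by
    unfold sg
    rw [← Units.val_mul, ← Int.negOnePow_add, show B U a b + B U b a = S U a b from rfl,
      Int.negOnePow_even _ h]
    rfl
  have h2 := sg_sq U a b
  calc sg U b a = (sg U a b * sg U a b) * sg U b a := by rw [h2, one_mul]
    _ = sg U a b * (sg U a b * sg U b a) := by ring
    _ = sg U a b := by rw [h1, mul_one]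

theorem sg_swap_odd {a b : Fin r → ℤ} (h : Odd (S U a b)) : sg U b a = -sg U a b := by
  have h1 : sg U a b * sg U b a = -1 := by
    unfold sg
    rw [← Units.val_mul, ← Int.negOnePow_add, show B U a b + B U b a = S U a b from rfl,
      Int.negOnePow_odd _ h]
    rfl
  have h2 := sg_sq U a b
  calc sg U b a = (sg U a b * sg U a b) * sg U b a := by rw [h2, one_mul]
    _ = sg U a b * (sg U a b * sg U b a) := by ring
    _ = -sg U a b := by rw [h1]; ring

theorem B_add_self (a b : Fin r → ℤ) :
    B U (a + b) (a + b) = B U a a + B U b b + S U a b := by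
  unfold S
  rw [B_add_left, B_add_right, B_add_right]
  ring

variable {U}

theorem B_nonneg (hU : Pos U) (a : Fin r → ℤ) : 0 ≤ B U a a := by
  by_cases h : a = 0
  · subst h
    simp [B]
  · exact (hU a h).le

theorem eq_zero_of_B (hU : Pos U) {a : Fin r → ℤ} (h : B U a a = 0) : a = 0 := by
  by_contra h0
  exact absurd (hU a h0) (by omega)

/-- Inner products of roots. -/
theorem S_ge (hU : Pos U) {a b : Fin r → ℤ} (ha : B U a a = 1) (hb : B U b b = 1) :
    -2 ≤ S U a b := by
  have h := B_nonneg hU (a + b)
  rw [B_add_self, ha, hb] at h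
  omega

theorem S_neg_right (a b : Fin r → ℤ) : S U a (-b) = -S U a b := by
  unfold S
  rw [B_neg_left, B_neg_right]
  ring

theorem S_neg_left (a b : Fin r → ℤ) : S U (-a) b = -S U a b := by
  unfold S
  rw [B_neg_left, B_neg_right]
  ring

theorem S_add_left (a b d : Fin r → ℤ) : S U (a + b) d = S U a d + S U b d := by
  unfold S
  rw [B_add_left, B_add_right]
  ring

theorem S_add_right (a b d : Fin r → ℤ) : S U a (b + d) = S U a b + S U a d := by
  unfold S
  rw [B_add_left, B_add_right]
  ring

theorem S_self {a : Fin r → ℤ} (ha : B U a a = 1) : S U a a = 2 := by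
  unfold S
  omega

theorem B_neg_self (a : Fin r → ℤ) : B U (-a) (-a) = B U a a := by
  rw [B_neg_left, B_neg_right, neg_neg]

theorem S_le (hU : Pos U) {a b : Fin r → ℤ} (ha : B U a a = 1) (hb : B U b b = 1) :
    S U a b ≤ 2 := by
  have h := S_ge hU ha (b := -b) (by rw [B_neg_self, hb])
  rw [S_neg_right] at h
  omega

theorem add_eq_zero_of_S (hU : Pos U) {a b : Fin r → ℤ} (ha : B U a a = 1) (hb : B U b b = 1)
    (h : S U a b = -2) : a + b = 0 := by
  refine eq_zero_of_B hU ?_
  rw [B_add_self, ha, hb, h]
  norm_num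

theorem S_of_add_eq_zero {a b : Fin r → ℤ} (ha : B U a a = 1) (h : a + b = 0) :
    S U a b = -2 := by
  have hb : b = -a := by rw [eq_neg_iff_add_eq_zero, add_comm]; exact h
  rw [hb, S_neg_right, S_self ha]

/-! ### The Jacobi identity on roots -/

/-- The coefficient of `e_(a+b+d)` in `[[e_a, e_b], e_d]`. -/
def T (U : Matrix (Fin r) (Fin r) ℤ) (a b d : Fin r → ℤ) : ℤ :=
  (if a + b = 0 then -S U a d else 0) +
    (if B U (a + b) (a + b) = 1 then sg U a b * sg U (a + b) d else 0)

theorem T_two (hU : Pos U) {a b d : Fin r → ℤ} (ha : B U a a = 1) (hb : B U b b = 1)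
    (h : S U a b = -2) : T U a b d = -S U a d := by
  unfold T
  have h0 := add_eq_zero_of_S hU ha hb h
  rw [if_pos h0, h0, if_neg, add_zero]
  simp [B]

theorem T_one {a b d : Fin r → ℤ} (ha : B U a a = 1) (hb : B U b b = 1)
    (h : S U a b = -1) : T U a b d = sg U a b * (sg U a d * sg U b d) := by
  unfold T
  have h1 : B U (a + b) (a + b) = 1 := by rw [B_add_self, ha, hb, h]; norm_num
  have h0 : a + b ≠ 0 := by
    intro h0
    rw [h0] at h1
    simp [B] at h1
  rw [if_neg h0, if_pos h1, zero_add, sg_add_left]

theorem T_zero {a b d : Fin r → ℤ} (ha : B U a a = 1) (hb : B U b b = 1)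
    (h : -1 < S U a b) : T U a b d = 0 := by
  unfold T
  have h1 : B U (a + b) (a + b) ≠ 1 := by rw [B_add_self, ha, hb]; omega
  have h0 : a + b ≠ 0 := by
    intro h0
    have := S_of_add_eq_zero (b := b) ha h0
    omega
  rw [if_neg h0, if_neg h1, zero_add]

/-- The case in which the first two roots are opposite. -/
theorem jac_opp (hU : Pos U) {a b d : Fin r → ℤ} (ha : B U a a = 1) (hb : B U b b = 1)
    (hd : B U d d = 1) (h : S U a b = -2) : T U a b d + T U b d a + T U d a b = 0 := by
  have h0 := add_eq_zero_of_S hU ha hb h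
  have hb' : b = -a := by rw [eq_neg_iff_add_eq_zero, add_comm]; exact h0
  rw [T_two hU ha hb h]
  have hlo := S_ge hU ha hd
  have hhi := S_le hU ha hd
  have hy : S U b d = -S U a d := by rw [hb', S_neg_left]
  have hz : S U d a = S U a d := S_comm U d a
  have hcase : S U a d = -2 ∨ S U a d = -1 ∨ S U a d = 0 ∨ S U a d = 1 ∨ S U a d = 2 := by omega
  rcases hcase with h1 | h1 | h1 | h1 | h1
  · rw [T_zero hb hd (by omega), T_two hU hd ha (by omega), h1]
    have : d = -a := by
      rw [eq_neg_iff_add_eq_zero, add_comm]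
      exact add_eq_zero_of_S hU ha hd h1
    rw [this, hb', S_neg_left, S_neg_right, S_self ha]
    norm_num
  · rw [T_zero hb hd (by omega), T_one hd ha (by omega), h1, hb', sg_neg_right, sg_neg_right,
      sg_self U ha]
    have := sg_sq U d a
    linear_combination -this
  · rw [T_zero hb hd (by omega), T_zero hd ha (by omega), h1]
    norm_num
  · rw [T_one hb hd (by omega), T_zero hd ha (by omega), h1, hb', sg_neg_left, sg_neg_left,
      sg_self U ha, sg_swap_odd (U := U) (a := a) (b := d) (by rw [h1]; decide)]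
    have := sg_sq U a d
    linear_combination this
  · have had : d = a := by
      have h2 : S U (-a) d = -2 := by rw [S_neg_left, h1]
      have h3 := add_eq_zero_of_S hU (a := -a) (b := d) (by rw [B_neg_self, ha]) hd h2
      have : d = a := by
        have h4 : d + -a = 0 := by rw [add_comm]; exact h3
        rw [← sub_eq_add_neg] at h4
        exact sub_eq_zero.1 h4
      exact this
    rw [T_two hU hb hd (by omega), T_zero hd ha (by omega), h1, hb', S_neg_left, S_self ha]
    norm_num

/-- Two inner products are `-1` and the third one is `0`. -/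
theorem jac_one {a b d : Fin r → ℤ} (ha : B U a a = 1) (hb : B U b b = 1)
    (hd : B U d d = 1) (h : S U a b = -1) (h' : S U b d = -1) (h0 : S U d a = 0) :
    T U a b d + T U b d a + T U d a b = 0 := by
  rw [T_one ha hb h, T_one hb hd h', T_zero hd ha (by omega),
    sg_swap_odd (U := U) (a := a) (b := b) (by rw [h]; decide),
    sg_swap_even (U := U) (a := a) (b := d) (by rw [S_comm, h0]; decide)]
  ring

/-- **The Jacobi identity on roots whose sum is a root.** -/
theorem jac_root (hU : Pos U) {a b d : Fin r → ℤ} (ha : B U a a = 1) (hb : B U b b = 1)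
    (hd : B U d d = 1) (hs : B U (a + b + d) (a + b + d) = 1) :
    T U a b d + T U b d a + T U d a b = 0 := by
  have hsum : S U a b + S U b d + S U d a = -2 := by
    rw [B_add_self, B_add_self, ha, hb, hd, S_add_left] at hs
    have := S_comm U d a
    omega
  have l1 := S_ge hU ha hb
  have l2 := S_ge hU hb hd
  have l3 := S_ge hU hd ha
  by_cases c1 : S U a b = -2
  · exact jac_opp hU ha hb hd c1
  by_cases c2 : S U b d = -2
  · have := jac_opp hU hb hd ha c2
    linear_combination this
  by_cases c3 : S U d a = -2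
  · have := jac_opp hU hd ha hb c3
    linear_combination this
  by_cases d1 : S U a b = -1
  · by_cases d2 : S U b d = -1
    · exact jac_one ha hb hd d1 d2 (by omega)
    · have := jac_one hd ha hb (by omega) d1 (by omega)
      linear_combination this
  · have := jac_one hb hd ha (by omega) (by omega) (by omega)
    linear_combination this

/-- The torus part of the Jacobi identity. -/
theorem jac_torus {a b d : Fin r → ℤ} (ha : B U a a = 1) (hb : B U b b = 1)
    (hd : B U d d = 1) (hs : a + b + d = 0) :
    sg U b d = sg U a b ∧ sg U d a = sg U a b := by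
  have hd' : d = -(a + b) := by
    rw [eq_neg_iff_add_eq_zero, add_comm]
    exact hs
  have hx : S U a b = -1 := by
    have : B U (a + b) (a + b) = 1 := by
      rw [← B_neg_self, ← hd', hd]
    rw [B_add_self, ha, hb] at this
    omega
  have h1 := sg_swap_odd (U := U) (a := a) (b := b) (by rw [hx]; decide)
  constructor
  · rw [hd', sg_neg_right, sg_add_right, sg_self U hb, h1]
    ring
  · rw [hd', sg_neg_left, sg_add_left, sg_self U ha, h1]
    ring

end Vale.Agent.P286.Ad.H163
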