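import Vale.Agent.P286.Ad.H163.Latt

/-!
# Structure constants of the Lie algebra of a positive definite even lattice, Jacobi identity
-/

namespace Vale.Agent.P286.Ad.H163

open Matrix

variable {r : ℕ} {U : Matrix (Fin r) (Fin r) ℤ}

/-- Indices of the basis: the torus and the roots. -/
abbrev Ix (U : Matrix (Fin r) (Fin r) ℤ) : Type := Fin r ⊕ Rt U

/-- The unit vector `i`. -/
abbrev un (i : Fin r) : Fin r → ℤ := Pi.single i 1

/-- The structure constants: `[i, j] = ∑ k, cc i j k • k`. -/
def cc (U : Matrix (Fin r) (Fin r) ℤ) : Ix U → Ix U → Ix U → ℤ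
  | .inl _, .inl _, _ => 0
  | .inl _, .inr _, .inl _ => 0
  | .inl i, .inr a, .inr b => if b = a then S U (un i) a.1 else 0
  | .inr _, .inl _, .inl _ => 0
  | .inr a, .inl i, .inr b => if b = a then -S U (un i) a.1 else 0
  | .inr a, .inr b, .inl i => if a.1 + b.1 = 0 then -a.1 i else 0
  | .inr a, .inr b, .inr d => if d.1 = a.1 + b.1 then sg U a.1 b.1 else 0

theorem S_root_add {a b d : Rt U} (h : d.1 = a.1 + b.1) : S U a.1 b.1 = -1 := by
  have h1 := d.2
  rw [h, B_add_self, a.2, b.2] at h1
  omega

/-- The bracket is alternating. -/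
theorem cc_anti (i j k : Ix U) : cc U i j k = -cc U j i k := by
  rcases i with i | a <;> rcases j with j | b <;> rcases k with k | d
  · simp [cc]
  · simp [cc]
  · simp [cc]
  · simp only [cc]
    split_ifs <;> simp
  · simp [cc]
  · simp only [cc]
    split_ifs <;> simp
  · simp only [cc]
    by_cases h : a.1 + b.1 = 0
    · have h' : b.1 + a.1 = 0 := by rw [add_comm]; exact h
      rw [if_pos h, if_pos h']
      have := congrFun h k
      simp only [Pi.add_apply, Pi.zero_apply] at this
      omega
    · have h' : ¬ b.1 + a.1 = 0 := by rw [add_comm]; exact h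
      rw [if_neg h, if_neg h', neg_zero]
  · simp only [cc]
    by_cases h : d.1 = a.1 + b.1
    · have h' : d.1 = b.1 + a.1 := by rw [h, add_comm]
      rw [if_pos h, if_pos h', sg_swap_odd (U := U) (a := a.1) (b := b.1)
        (by rw [S_root_add h]; decide), neg_neg]
    · have h' : ¬ d.1 = b.1 + a.1 := by rw [add_comm]; exact h
      rw [if_neg h, if_neg h', neg_zero]

/-- The form and the unit vectors. -/
theorem sum_S_un (a b : Fin r → ℤ) : ∑ i, a i * S U (un i) b = S U a b := by
  have h1 : ∀ b' : Fin r → ℤ, ∑ i, a i * B U (un i) b' = B U a b' := by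
    intro b'
    have h3 : ∀ i, B U (un i) b' = (U *ᵥ b') i := fun i => by
      unfold B
      rw [single_one_dotProduct]
    simp only [h3]
    rfl
  have h2 : ∀ b' : Fin r → ℤ, ∑ i, a i * B U b' (un i) = B U b' a := by
    intro b'
    have h3 : ∀ c : Fin r → ℤ, B U b' c = (b' ᵥ* U) ⬝ᵥ c := fun c => by
      unfold B
      rw [dotProduct_mulVec]
    have h4 : ∀ i, B U b' (un i) = (b' ᵥ* U) i := fun i => by
      rw [h3, dotProduct_single_one]
    simp only [h4]
    rw [h3, dotProduct_comm]
    rfl
  unfold S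
  rw [← h1, ← h2, ← Finset.sum_add_distrib]
  refine Finset.sum_congr rfl fun i _ => ?_
  ring

variable [Fintype (Rt U)]

/-- The double bracket. -/
def dd (U : Matrix (Fin r) (Fin r) ℤ) [Fintype (Rt U)] (i j k l : Ix U) : ℤ :=
  ∑ p, cc U i j p * cc U p k l

theorem dd_split (i j k l : Ix U) : dd U i j k l =
    ∑ p : Fin r, cc U i j (.inl p) * cc U (.inl p) k l +
      ∑ p : Rt U, cc U i j (.inr p) * cc U (.inr p) k l := by
  unfold dd
  rw [Fintype.sum_sum_type]

theorem sum_root (f : Rt U → ℤ) (s : Fin r → ℤ) (g : ℤ) (hf : ∀ p : Rt U, p.1 = s → f p = g)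
    (hf' : ∀ p : Rt U, p.1 ≠ s → f p = 0) : ∑ p, f p = if B U s s = 1 then g else 0 := by
  classical
  by_cases hs : B U s s = 1
  · rw [if_pos hs, Finset.sum_eq_single (⟨s, hs⟩ : Rt U)]
    · exact hf _ rfl
    · intro p _ hp
      exact hf' p fun h => hp (Subtype.ext h)
    · intro h
      exact absurd (Finset.mem_univ _) h
  · rw [if_neg hs]
    refine Finset.sum_eq_zero fun p _ => ?_
    exact hf' p fun h => hs (by rw [← h]; exact p.2)

/-- The root part of the double bracket of three roots. -/
theorem dd_root (a b d l : Rt U) : dd U (.inr a) (.inr b) (.inr d) (.inr l) =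
    if l.1 = a.1 + b.1 + d.1 then T U a.1 b.1 d.1 else 0 := by
  rw [dd_split]
  have h1 : ∑ p : Fin r, cc U (.inr a) (.inr b) (.inl p) * cc U (.inl p) (.inr d) (.inr l) =
      if l.1 = a.1 + b.1 + d.1 then (if a.1 + b.1 = 0 then -S U a.1 d.1 else 0) else 0 := by
    by_cases h0 : a.1 + b.1 = 0
    · by_cases hl : l = d
      · subst hl
        have : l.1 = a.1 + b.1 + l.1 := by rw [h0, zero_add]
        rw [if_pos this, if_pos h0, ← sum_S_un, ← Finset.sum_neg_distrib]
        refine Finset.sum_congr rfl fun p _ => ?_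
        simp only [cc, if_pos h0, if_true]
        ring
      · have : ¬ l.1 = a.1 + b.1 + d.1 := by
          rw [h0, zero_add]
          exact fun h => hl (Subtype.ext h)
        rw [if_neg this]
        refine Finset.sum_eq_zero fun p _ => ?_
        simp only [cc, if_neg hl, mul_zero]
    · rw [if_neg h0, ite_self]
      refine Finset.sum_eq_zero fun p _ => ?_
      simp only [cc, if_neg h0, zero_mul]
  have h2 : ∑ p : Rt U, cc U (.inr a) (.inr b) (.inr p) * cc U (.inr p) (.inr d) (.inr l) =
      if l.1 = a.1 + b.1 + d.1 then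
        (if B U (a.1 + b.1) (a.1 + b.1) = 1 then sg U a.1 b.1 * sg U (a.1 + b.1) d.1 else 0)
      else 0 := by
    rw [sum_root (s := a.1 + b.1)
      (g := if l.1 = a.1 + b.1 + d.1 then sg U a.1 b.1 * sg U (a.1 + b.1) d.1 else 0)]
    · by_cases hl : l.1 = a.1 + b.1 + d.1
      · rw [if_pos hl, if_pos hl]
      · rw [if_neg hl, if_neg hl, ite_self]
    · intro p hp
      simp only [cc, hp, if_true]
      split_ifs <;> simp
    · intro p hp
      simp only [cc, if_neg hp, zero_mul]
  rw [h1, h2]
  unfold T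
  split_ifs <;> simp

/-- The torus part of the double bracket of three roots. -/
theorem dd_torus (a b d : Rt U) (l : Fin r) : dd U (.inr a) (.inr b) (.inr d) (.inl l) =
    if a.1 + b.1 + d.1 = 0 then sg U a.1 b.1 * d.1 l else 0 := by
  rw [dd_split]
  have h1 : ∑ p : Fin r, cc U (.inr a) (.inr b) (.inl p) * cc U (.inl p) (.inr d) (.inl l) = 0 :=
    Finset.sum_eq_zero fun p _ => by simp only [cc, mul_zero]
  rw [h1, zero_add, sum_root (s := a.1 + b.1)
    (g := if a.1 + b.1 + d.1 = 0 then sg U a.1 b.1 * d.1 l else 0)]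
  · by_cases h0 : a.1 + b.1 + d.1 = 0
    · have hd : a.1 + b.1 = -d.1 := by
        rw [eq_neg_iff_add_eq_zero]
        exact h0
      rw [hd, B_neg_self, if_pos d.2]
    · rw [if_neg h0, ite_self]
  · intro p hp
    simp only [cc, hp, if_true]
    by_cases h0 : a.1 + b.1 + d.1 = 0
    · rw [if_pos h0, if_pos h0]
      have := congrFun h0 l
      simp only [Pi.add_apply, Pi.zero_apply] at this
      have h3 : -(a.1 + b.1) l = d.1 l := by
        simp only [Pi.add_apply]
        omega
      rw [h3]
    · rw [if_neg h0, if_neg h0, mul_zero]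
  · intro p hp
    simp only [cc, if_neg hp, zero_mul]

end Vale.Agent.P286.Ad.H163
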