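import Vale.Agent.P286.Ad.H163.Cartan
import Vale.Agent.P286.Ad.Typ
import Vale.Agent.P286.Ad.Tables

/-!
# The Lie algebra of type `E₈` has type `E₈`
-/

namespace Vale.Agent.P286.Ad

open Matrix H163

/-- The indices of the basis of `eEight`. -/
noncomputable def H163.ixe : Fin eEight.n ≃ Ix U8 := ix

/-- The basis vector with index `x`. -/
noncomputable def H163.ev (x : Ix U8) : Fin eEight.n → ℤ := Pi.single (H163.ixe.symm x) 1

theorem H163.ev_apply (x : Ix U8) (k : Fin eEight.n) :
    H163.ev x k = (Pi.single x 1 : Ix U8 → ℤ) (H163.ixe k) := by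
  by_cases h : k = H163.ixe.symm x
  · rw [h, Equiv.apply_symm_apply, Pi.single_eq_same]
    exact Pi.single_eq_same _ _
  · have h' : H163.ixe k ≠ x := fun e => h (by rw [← e, Equiv.symm_apply_apply])
    rw [Pi.single_eq_of_ne h']
    exact Pi.single_eq_of_ne h _

theorem H163.ev_self (x : Ix U8) : H163.ev x (H163.ixe.symm x) = 1 := Pi.single_eq_same _ _

theorem H163.br_ev (x y : Ix U8) (k : Fin eEight.n) :
    eEight.br (H163.ev x) (H163.ev y) k = cc U8 x y (H163.ixe k) := by
  unfold H163.ev
  rw [LieC.br_single]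
  show cc U8 (H163.ixe (H163.ixe.symm x)) (H163.ixe (H163.ixe.symm y)) (H163.ixe k) = _
  rw [Equiv.apply_symm_apply, Equiv.apply_symm_apply]

/-- **The Lie algebra `eEight` has type `E₈`.** -/
theorem eEight_hasType : eEight.HasType CartanMatrix.E₈ := by
  refine ⟨fun i => H163.ev (.inl i), fun i => H163.ev (.inr (sr U8_diag i)),
    fun i => (-1 : ℤ) • H163.ev (.inr (sn U8_diag i)), ?_, ?_, ?_, ?_, ?_, ?_⟩
  · intro i hi
    have h0 : H163.ev (.inl i) (H163.ixe.symm (.inl i)) = 0 := congrFun hi _
    rw [H163.ev_self] at h0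
    exact one_ne_zero h0
  · intro i j
    funext k
    beta_reduce
    rw [H163.br_ev]
    simp only [cc]
    rfl
  · intro i j
    funext k
    beta_reduce
    rw [LieC.br_smul_right, Pi.smul_apply, H163.br_ev]
    by_cases hij : i = j
    · subst hij
      rw [cc_sr_sn, if_pos rfl, H163.ev_apply, smul_eq_mul]
      ring
    · rw [cc_sr_sn_ne U8_diag hij (E8_off hij), if_neg hij, smul_zero]
      rfl
  · intro i j
    funext k
    beta_reduce
    rw [H163.br_ev, cc_tr, Pi.smul_apply, H163.ev_apply, smul_eq_mul]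
    show S U8 (un i) (un j) * _ = _
    rw [S8_un]
  · intro i j
    funext k
    beta_reduce
    rw [LieC.br_smul_right, Pi.smul_apply, H163.br_ev, cc_tr, Pi.neg_apply, Pi.smul_apply,
      Pi.smul_apply, H163.ev_apply]
    show (-1 : ℤ) • (S U8 (un i) (-un j) * _) = _
    rw [S_neg_right, S8_un]
    simp only [smul_eq_mul]
    ring
  · intro W he hf hW
    have hf' : ∀ i, H163.ev (.inr (sn U8_diag i)) ∈ W := by
      intro i
      have h0 : (-1 : ℤ) • H163.ev (.inr (sn U8_diag i)) ∈ W := hf i
      have h1 := W.neg_mem h0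
      rwa [neg_smul, one_smul, neg_neg] at h1
    have hr : ∀ a : Rt U8, H163.ev (.inr a) ∈ W := by
      refine all_roots pos8 U8_diag (fun a => H163.ev (.inr a) ∈ W) he hf' ?_
      intro a b d ha hb h
      have h1 := hW _ ha _ hb
      have h2 : eEight.br (H163.ev (.inr a)) (H163.ev (.inr b)) =
          sg U8 a.1 b.1 • H163.ev (.inr d) := by
        funext k
        rw [H163.br_ev, cc_add h, Pi.smul_apply, H163.ev_apply, smul_eq_mul]
      rw [h2] at h1
      have h3 := W.zsmul_mem h1 (sg U8 a.1 b.1)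
      rwa [smul_smul, sg_sq, one_smul] at h3
    have ht : ∀ i, H163.ev (.inl i) ∈ W := by
      intro i
      have h1 := hW _ (he i) _ (hf' i)
      have h2 : eEight.br (H163.ev (.inr (sr U8_diag i))) (H163.ev (.inr (sn U8_diag i))) =
          -H163.ev (.inl i) := by
        funext k
        rw [H163.br_ev, cc_sr_sn, Pi.neg_apply, H163.ev_apply]
      rw [h2] at h1
      simpa using W.neg_mem h1
    refine gen_of_basis eEight W fun k => ⟨1, one_ne_zero, ?_⟩
    rw [one_smul]
    have h1 : ∀ x : H163.Ix H163.U8, H163.ev x ∈ W := fun x => by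
      rcases x with i | a
      · exact ht i
      · exact hr a
    have h2 := h1 (H163.ixe k)
    unfold H163.ev at h2
    rwa [Equiv.symm_apply_apply] at h2

end Vale.Agent.P286.Ad
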